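import Vale.Agent.P135.Full.Degree

/-!
P225, module F: Brouwer's fixed point theorem for a closed ball of a finite-dimensional normed
space, from the degree lemma of P135.
-/

noncomputable section

namespace Vale.Agent.P225

open Set Metric Filter Topology
open scoped ContDiff

theorem exists_fixedPoint_closedBall {E : Type} [NormedAddCommGroup E] [NormedSpace ℝ E]
    [FiniteDimensional ℝ E] {c : E} {r : ℝ} (hr : 0 ≤ r) {f : E → E}
    (hf : ContinuousOn f (closedBall c r)) (hmap : MapsTo f (closedBall c r) (closedBall c r)) :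
    ∃ x ∈ closedBall c r, f x = x := by
  -- extend `f` to the whole space through the radial retraction
  set ρ : E → E := fun x => c + (r / max r ‖x - c‖) • (x - c) with hρ
  rcases hr.eq_or_lt with h0 | hpos
  · subst h0
    exact ⟨c, by simp, by simpa using hmap (show c ∈ closedBall c 0 by simp)⟩
  have hρc : Continuous ρ := by
    refine continuous_const.add ((continuous_const.div (continuous_const.max
      (continuous_id.sub continuous_const).norm) fun x => ?_).smul
      (continuous_id.sub continuous_const))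
    exact (lt_max_of_lt_left hpos).ne'
  have hρm : ∀ x, ρ x ∈ closedBall c r := by
    intro x
    have hm : 0 < max r ‖x - c‖ := lt_max_of_lt_left hpos
    simp only [hρ, mem_closedBall, dist_eq_norm, add_sub_cancel_left, norm_smul, norm_div,
      Real.norm_of_nonneg hpos.le, Real.norm_of_nonneg hm.le]
    calc r / max r ‖x - c‖ * ‖x - c‖ ≤ r / max r ‖x - c‖ * max r ‖x - c‖ := by
          gcongr; exact le_max_right _ _
      _ = r := div_mul_cancel₀ _ hm.ne'
  have hρid : ∀ x ∈ closedBall c r, ρ x = x := by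
    intro x hx
    rw [mem_closedBall, dist_eq_norm] at hx
    simp [hρ, max_eq_left hx, div_self hpos.ne']
  set g : E → E := f ∘ ρ
  have hg : Continuous g := hf.comp_continuous hρc hρm
  have hgm : ∀ x, g x ∈ closedBall c r := fun x => hmap (hρm x)
  -- approximate fixed points
  have key : ∀ n : ℕ, ∃ x, ‖g x - x‖ ≤ 1 / (n + 1 : ℝ) := by
    intro n
    have hε : (0 : ℝ) < 1 / (n + 1) := by positivity
    obtain ⟨G, hG, hGd, -⟩ := hg.exists_contDiff_approx (2 : ℕ∞)
      (continuous_const (y := 1 / (n + 1 : ℝ))) (fun _ => hε)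
    set F : ℝ × E → E := fun p => p.2 - p.1 • G p.2 with hF
    obtain ⟨x, hx⟩ := Vale.Agent.P135.Full.exists_zero_of_homotopy F
      (contDiff_snd.sub (contDiff_fst.smul (hG.comp contDiff_snd)))
      (LinearEquiv.refl ℝ E) 0 (by simp [hF]) (‖c‖ + r + 1) (by
        intro t ht x hx
        have hx' : x = t • G x := sub_eq_zero.1 hx
        have h1 : ‖G x‖ ≤ ‖c‖ + r + 1 := by
          have := (hGd x).le
          rw [dist_eq_norm] at this
          have h2 := hgm x
          rw [mem_closedBall, dist_eq_norm] at h2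
          have h3 : 1 / ((n : ℝ) + 1) ≤ 1 := by rw [div_le_one (by positivity)]; simp
          calc ‖G x‖ = ‖(G x - g x) + (g x - c) + c‖ := by congr 1; abel
            _ ≤ ‖G x - g x‖ + ‖g x - c‖ + ‖c‖ := norm_add₃_le
            _ ≤ 1 + r + ‖c‖ := by gcongr; linarith
            _ = ‖c‖ + r + 1 := by ring
        calc ‖x‖ = ‖t‖ * ‖G x‖ := by rw [← norm_smul, ← hx']
          _ ≤ 1 * ‖G x‖ := by
              gcongr; rw [Real.norm_eq_abs, abs_le]; exact ⟨by linarith [ht.1], ht.2⟩
          _ ≤ _ := by rw [one_mul]; exact h1)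
    refine ⟨x, ?_⟩
    have hx' : x = G x := by simpa [hF, sub_eq_zero] using hx
    have := (hGd x).le
    rw [dist_eq_norm, ← hx', norm_sub_rev] at this
    exact this
  choose x hx using key
  have hb : ∀ n, x n ∈ closedBall c (r + 1) := by
    intro n
    have h2 := hgm (x n)
    rw [mem_closedBall, dist_eq_norm] at h2 ⊢
    calc ‖x n - c‖ = ‖(g (x n) - c) - (g (x n) - x n)‖ := by congr 1; abel
      _ ≤ ‖g (x n) - c‖ + ‖g (x n) - x n‖ := norm_sub_le _ _
      _ ≤ r + 1 := by
          have : 1 / ((n : ℝ) + 1) ≤ 1 := by rw [div_le_one (by positivity)]; simp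
          linarith [hx n]
  have : ProperSpace E := FiniteDimensional.proper ℝ E
  obtain ⟨y, -, φ, hφ, hlim⟩ := (isCompact_closedBall c (r + 1)).tendsto_subseq hb
  have h0 : Tendsto (fun n => g (x (φ n)) - x (φ n)) atTop (𝓝 (g y - y)) :=
    ((hg.tendsto y).comp hlim).sub hlim
  have h1 : Tendsto (fun n => g (x (φ n)) - x (φ n)) atTop (𝓝 0) :=
    squeeze_zero_norm (fun n => hx (φ n))
      ((tendsto_one_div_add_atTop_nhds_zero_nat).comp hφ.tendsto_atTop)
  have hy : g y = y := sub_eq_zero.1 (tendsto_nhds_unique h0 h1)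
  have hym : y ∈ closedBall c r := hy ▸ hgm y
  exact ⟨y, hym, by simpa [g, hρid y hym] using hy⟩

end Vale.Agent.P225
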