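import Mathlib

/-!
P225, module F: growth along the chain of clusters. Dwell lengths vary slowly, so a periodic
schedule with small averages gives a small exponential rate in the elapsed time.
-/

noncomputable section

namespace Vale.Agent.P225

open Filter Topology Finset

/-- Weighted sum of a periodic sequence with period sums at most `n β`, for monotone weights. -/
theorem periodic_sum_le {f τ : ℕ → ℝ} {n : ℕ} (hn : 0 < n) {β A : ℝ}
    (hper : ∀ m, f (m + n) = f m) (hsum : ∑ m ∈ range n, f m ≤ n * β) (hf : ∀ m, |f m| ≤ A)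
    (hA : |β| ≤ A) (hτ : Monotone τ) (h0 : ∀ m, 0 ≤ τ m) (N : ℕ) :
    ∑ m ∈ range N, τ m * f m ≤ β * (∑ m ∈ range N, τ m) + 2 * n * A * τ N := by
  set μ := (∑ m ∈ range n, f m) / n with hμ
  have hn' : (0 : ℝ) < n := by exact_mod_cast hn
  have hμβ : μ ≤ β := by rw [hμ, div_le_iff₀ hn']; linarith
  have hμA : |μ| ≤ A := by
    rw [hμ, abs_div, abs_of_pos hn', div_le_iff₀ hn']
    refine (abs_sum_le_sum_abs _ _).trans ((Finset.sum_le_sum fun m _ => hf m).trans ?_)
    simp [mul_comm]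
  set H : ℕ → ℝ := fun m => ∑ i ∈ range m, (f i - μ) with hH
  have hh : ∀ i, |f i - μ| ≤ 2 * A := fun i =>
    (abs_sub _ _).trans (by linarith [hf i])
  have hHn : H n = 0 := by
    simp only [hH, sum_sub_distrib, sum_const, card_range, nsmul_eq_mul, hμ]
    field_simp
    ring
  have hHp : ∀ m, H (m + n) = H m := fun m => by
    have e : H (m + n) = H n + ∑ i ∈ range m, (f (n + i) - μ) := by
      simp only [hH]; rw [add_comm m n, sum_range_add]
    rw [e, hHn, zero_add]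
    simp only [hH]
    exact sum_congr rfl fun i _ => by rw [add_comm n i, hper]
  have hHb : ∀ m, |H m| ≤ n * A := by
    have hsmall : ∀ m ≤ n, |H m| ≤ n * A := fun m hm => by
      have h1 : |H m| ≤ m * (2 * A) := by
        refine (abs_sum_le_sum_abs _ _).trans ((Finset.sum_le_sum fun i _ => hh i).trans ?_)
        simp
      have h2 : |H m| ≤ (n - m : ℕ) * (2 * A) := by
        have e : H n = H m + ∑ i ∈ Ico m n, (f i - μ) := by
          simp only [hH]; rw [sum_range_add_sum_Ico _ hm]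
        rw [show H m = -∑ i ∈ Ico m n, (f i - μ) by linarith, abs_neg]
        refine (abs_sum_le_sum_abs _ _).trans ((Finset.sum_le_sum fun i _ => hh i).trans ?_)
        simp
      have h3 : ((n - m : ℕ) : ℝ) = n - m := by push_cast [Nat.cast_sub hm]; ring
      rw [h3] at h2
      linarith
    intro m
    induction m using Nat.strong_induction_on with
    | _ m ih =>
      rcases le_or_gt m n with h | h
      · exact hsmall m h
      · rw [show m = m - n + n by omega, hHp]; exact ih _ (by omega)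
  have key : ∀ N, ∑ m ∈ range N, τ m * (f m - μ) ≤ τ N * H N + n * A * (τ N - τ 0) := by
    intro N
    induction N with
    | zero => simp [hH]
    | succ N ih =>
      have e : H (N + 1) = H N + (f N - μ) := sum_range_succ _ N
      have h1 : 0 ≤ (τ (N + 1) - τ N) * (H (N + 1) + n * A) :=
        mul_nonneg (sub_nonneg.2 (hτ N.le_succ)) (by linarith [(abs_le.1 (hHb (N + 1))).1])
      rw [sum_range_succ]
      rw [e] at h1 ⊢
      linarith
  have h1 := key N
  have h2 : τ N * H N ≤ τ N * (n * A) :=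
    mul_le_mul_of_nonneg_left (abs_le.1 (hHb N)).2 (h0 N)
  have h3 : (0 : ℝ) ≤ n * A * τ 0 :=
    mul_nonneg (mul_nonneg hn'.le ((abs_nonneg μ).trans hμA)) (h0 0)
  have h4 := mul_le_mul_of_nonneg_right hμβ (sum_nonneg fun m _ => h0 m : 0 ≤ ∑ m ∈ range N, τ m)
  have e : ∑ m ∈ range N, τ m * (f m - μ) =
      ∑ m ∈ range N, τ m * f m - μ * ∑ m ∈ range N, τ m := by
    rw [mul_sum, ← sum_sub_distrib]
    exact sum_congr rfl fun m _ => by ring
  linarith

/-- With a strict margin the per-step errors are absorbed. -/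
theorem growth_exponent {f τ err : ℕ → ℝ} {n : ℕ} (hn : 0 < n) {k δ A : ℝ} (hδ : 0 < δ)
    (hper : ∀ m, f (m + n) = f m) (hsum : ∑ m ∈ range n, f m ≤ n * (k - δ))
    (hf : ∀ m, |f m| ≤ A) (hA : |k - δ| ≤ A) (hτ : Monotone τ) (h0 : ∀ m, 0 ≤ τ m)
    (herr : ∀ ε > 0, ∃ C, ∀ N, ∑ m ∈ range N, |err m| + τ N ≤ C + ε * ∑ m ∈ range N, τ m) :
    ∃ C, ∀ N, ∑ m ∈ range N, (τ m * f m + err m) ≤ C + (k - δ / 2) * ∑ m ∈ range N, τ m := by
  have hA0 : 0 ≤ A := (abs_nonneg _).trans hA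
  set K := 2 * n * A + 1 with hK
  have hK0 : 0 < K := by positivity
  obtain ⟨C, hC⟩ := herr (δ / (2 * K)) (by positivity)
  refine ⟨K * C, fun N => ?_⟩
  have h1 := periodic_sum_le hn hper hsum hf hA hτ h0 N
  have h2 := mul_le_mul_of_nonneg_left (hC N) hK0.le
  have e : K * (δ / (2 * K) * ∑ m ∈ range N, τ m) = δ / 2 * ∑ m ∈ range N, τ m := by field_simp
  have h3 : ∑ m ∈ range N, err m ≤ ∑ m ∈ range N, |err m| := sum_le_sum fun m _ => le_abs_self _
  have h4 : 0 ≤ (K - 1) * ∑ m ∈ range N, |err m| :=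
    mul_nonneg (by rw [hK]; linarith [show (0 : ℝ) ≤ 2 * n * A by positivity])
      (sum_nonneg fun m _ => abs_nonneg _)
  have h5 : 2 * (n : ℝ) * A * τ N ≤ K * τ N := by
    rw [hK]; linarith [h0 N]
  rw [mul_add K C, e] at h2
  rw [sum_add_distrib]
  linarith

/-- The schedule used: dwell `(j₀ + m) ^ 5`, errors of order `(j₀ + m) ^ 4`. -/
theorem poly_err (j₀ : ℕ) (c : ℝ) :
    ∀ ε > 0, ∃ C, ∀ N : ℕ, ∑ m ∈ range N, |c * ((j₀ + m : ℕ) : ℝ) ^ 4| + ((j₀ + N : ℕ) : ℝ) ^ 5
      ≤ C + ε * ∑ m ∈ range N, ((j₀ + m : ℕ) : ℝ) ^ 5 := by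
  intro ε hε
  set K := |c| + 31 with hK
  have hK0 : 0 < K := by positivity
  set R := K / ε with hR
  have hR0 : 0 ≤ R := by positivity
  set Z := K * (1 + R ^ 4) with hZ
  -- a step costs at most `ε` times its dwell except for finitely many
  set good : ℕ → ℝ := fun m => if ((j₀ + m : ℕ) : ℝ) ≤ R + 1 then Z else 0 with hgood
  have hstep : ∀ m : ℕ, |c * ((j₀ + m : ℕ) : ℝ) ^ 4| +
      (((j₀ + (m + 1) : ℕ) : ℝ) ^ 5 - ((j₀ + m : ℕ) : ℝ) ^ 5) ≤
      ε * ((j₀ + m : ℕ) : ℝ) ^ 5 + (good m + (if j₀ + m = 0 then 1 else 0)) := by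
    intro m
    by_cases hz : j₀ + m = 0
    · have h1 : j₀ + (m + 1) = 1 := by omega
      have hg : 0 ≤ good m := by
        simp only [hgood, hZ]; split_ifs <;> positivity
      simp only [hz, h1, Nat.cast_zero, Nat.cast_one, if_true]
      norm_num
      linarith
    set i : ℝ := ((j₀ + m : ℕ) : ℝ) with hi
    have hi1 : 1 ≤ i := by rw [hi]; exact_mod_cast Nat.one_le_iff_ne_zero.2 hz
    have e : ((j₀ + (m + 1) : ℕ) : ℝ) = i + 1 := by rw [hi]; push_cast; ring
    rw [e, abs_mul, abs_of_nonneg (by positivity : (0:ℝ) ≤ i ^ 4), if_neg hz, add_zero]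
    have h4 : (i + 1) ^ 5 - i ^ 5 ≤ 31 * i ^ 4 := by
      have e1 : i ^ 3 ≤ i ^ 4 := pow_le_pow_right₀ hi1 (by norm_num)
      have e2 : i ^ 2 ≤ i ^ 4 := pow_le_pow_right₀ hi1 (by norm_num)
      have e3 : i ≤ i ^ 4 := le_self_pow₀ hi1 (by norm_num)
      have e4 : (1 : ℝ) ≤ i ^ 4 := one_le_pow₀ hi1
      ring_nf
      linarith
    have h5 : |c| * i ^ 4 + ((i + 1) ^ 5 - i ^ 5) ≤ K * i ^ 4 := by rw [hK]; linarith
    refine h5.trans ?_
    by_cases hr : i ≤ R
    · have : i ≤ R + 1 := by linarith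
      simp only [hgood, ← hi, this, if_true, hZ]
      have h6 : i ^ 4 ≤ R ^ 4 := pow_le_pow_left₀ (by linarith) hr 4
      have h7 : 0 ≤ ε * i ^ 5 := by positivity
      linarith [mul_le_mul_of_nonneg_left h6 hK0.le]
    · push Not at hr
      have h6 : K * i ^ 4 ≤ ε * i ^ 5 := by
        have : K ≤ ε * i := by
          rw [hR, div_lt_iff₀ hε] at hr; linarith
        calc K * i ^ 4 ≤ ε * i * i ^ 4 := by gcongr
          _ = ε * i ^ 5 := by ring
      have hg : 0 ≤ good m := by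
        simp only [hgood, hZ]; split_ifs <;> positivity
      linarith
  set B := ⌈R + 1⌉₊ + 1 with hB
  refine ⟨(j₀ : ℝ) ^ 5 + B * (Z + 1), fun N => ?_⟩
  have h1 := Finset.sum_le_sum fun m (_ : m ∈ range N) => hstep m
  have htel : ∑ m ∈ range N, (((j₀ + (m + 1) : ℕ) : ℝ) ^ 5 - ((j₀ + m : ℕ) : ℝ) ^ 5) =
      ((j₀ + N : ℕ) : ℝ) ^ 5 - (j₀ : ℝ) ^ 5 := by
    rw [sum_range_sub (fun m => ((j₀ + m : ℕ) : ℝ) ^ 5)]; simp
  have hextra : ∑ m ∈ range N, (good m + (if j₀ + m = 0 then 1 else 0)) ≤ B * (Z + 1) := by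
    have hle : ∀ m, good m + (if j₀ + m = 0 then (1:ℝ) else 0) ≤
        if m < B then Z + 1 else 0 := by
      intro m
      have hZ0 : 0 ≤ Z := by rw [hZ]; positivity
      split_ifs with a b b <;> simp only [hgood] <;> split_ifs with d
      all_goals first
        | linarith
        | omega
        | exfalso
          have hc : (m : ℝ) ≤ ⌈R + 1⌉₊ := le_trans (by push_cast at d ⊢; linarith) (Nat.le_ceil _)
          exact b (Nat.lt_succ_of_le (by exact_mod_cast hc))
    refine (Finset.sum_le_sum fun m _ => hle m).trans ?_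
    rw [← sum_filter, sum_const, nsmul_eq_mul]
    refine mul_le_mul_of_nonneg_right ?_ (by rw [hZ]; positivity)
    have hsub : (range N).filter (· < B) ⊆ range B := fun m hm => by simpa using (mem_filter.1 hm).2
    exact_mod_cast (card_le_card hsub).trans_eq (card_range B)
  rw [sum_add_distrib, sum_add_distrib, htel, ← mul_sum] at h1
  linarith

/-- A bound at the switch times gives a bound at every time: the norm is nondecreasing and the next
switch time exceeds the present one by `o(T)`. -/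
theorem growth_interpolate {T : ℕ → ℝ} {u : ℝ → ℝ} {k δ C : ℝ} (hδ : 0 < δ) (hk : δ ≤ k)
    (hC : 0 ≤ C) (hT : Tendsto T atTop atTop) (hmono : Monotone T)
    (hrel : ∀ ε > 0, ∃ D, ∀ m, T (m + 1) - T m ≤ D + ε * (T m - T 0))
    (hu : ∀ m, ∀ t ∈ Set.Icc (T m) (T (m + 1)), u t ≤ C * Real.exp ((k - δ) * (T (m + 1) - T 0))) :
    ∃ C', ∀ t, T 0 ≤ t → u t ≤ C' * Real.exp (k * t) := by
  set ε := δ / (k + 1) with hε
  have hε0 : 0 < ε := by have : 0 ≤ k := hδ.le.trans hk; positivity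
  obtain ⟨D, hD⟩ := hrel ε hε0
  refine ⟨C * Real.exp ((k - δ) * D - k * T 0), fun t ht => ?_⟩
  obtain ⟨m, hm1, hm2⟩ : ∃ m, T m ≤ t ∧ t ≤ T (m + 1) := by
    obtain ⟨N, hN⟩ := (hT.eventually_ge_atTop t).exists
    have hex : ∃ N, t ≤ T (N + 1) := ⟨N, hN.trans (hmono N.le_succ)⟩
    classical
    refine ⟨Nat.find hex, ?_, Nat.find_spec hex⟩
    rcases Nat.eq_zero_or_pos (Nat.find hex) with h | h
    · rw [h]; exact ht
    · have := Nat.find_min hex (Nat.sub_lt h one_pos)
      rw [Nat.sub_add_cancel (show 1 ≤ Nat.find hex from h)] at this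
      exact (not_le.1 this).le
  refine (hu m t ⟨hm1, hm2⟩).trans ?_
  rw [mul_assoc, ← Real.exp_add]
  refine mul_le_mul_of_nonneg_left (Real.exp_le_exp.2 ?_) hC
  have h1 : T (m + 1) - T 0 ≤ D + (1 + ε) * (t - T 0) := by
    have := hD m
    have h2 : (1 + ε) * (T m - T 0) ≤ (1 + ε) * (t - T 0) :=
      mul_le_mul_of_nonneg_left (by linarith) (by linarith)
    linarith
  have h2 : (k - δ) * (1 + ε) ≤ k := by
    have e : ε * (k + 1) = δ := by
      rw [hε]; exact div_mul_cancel₀ _ (by linarith)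
    have : 0 ≤ ε * δ := by positivity
    linarith
  have h3 := mul_le_mul_of_nonneg_left h1 (sub_nonneg.2 hk)
  have h4 := mul_le_mul_of_nonneg_right h2 (sub_nonneg.2 ht)
  linarith

/-- Norms along a path of classes: if step `i` is bounded by `exp (g i (o i))` on class `o i`. -/
theorem path_bound {V Ω : Type*} [NormedAddCommGroup V] (S : ℕ → V → V) (g : ℕ → Ω → ℝ)
    (cls : Ω → Set V) (π : ℕ → Ω → Ω)
    (hstep : ∀ i o, ∀ v ∈ cls o, S i v ∈ cls (π i o) ∧ ‖S i v‖ ≤ Real.exp (g i o) * ‖v‖)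
    {v : ℕ → V} {o : ℕ → Ω} (hv : ∀ i, v (i + 1) = S i (v i)) (ho : ∀ i, o (i + 1) = π i (o i))
    (h0 : v 0 ∈ cls (o 0)) (m : ℕ) :
    v m ∈ cls (o m) ∧ ‖v m‖ ≤ Real.exp (∑ i ∈ range m, g i (o i)) * ‖v 0‖ := by
  induction m with
  | zero => simpa using h0
  | succ m ih =>
    obtain ⟨h1, h2⟩ := hstep m (o m) (v m) ih.1
    rw [hv m, ho m]
    refine ⟨h1, h2.trans ?_⟩
    rw [sum_range_succ, add_comm, Real.exp_add, mul_assoc]
    exact mul_le_mul_of_nonneg_left ih.2 (Real.exp_nonneg _)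

end Vale.Agent.P225
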