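import Vale.Agent.P225.Cluster.Brouwer

/-!
P225, module F: all clusters solved at once. The S-rows of every cluster map are made monomial up to
sibling blocks, the Q-rows are carried backwards from `0`.
-/

noncomputable section

namespace Vale.Agent.P225

open Set Metric
open scoped Matrix.Norms.L2Operator

/-- A backward recursion which depends continuously on all parameters has a fixed point in the
product of the parameter balls. -/
theorem exists_chain_fixedPoint {J : ℕ} {X : Fin J → Type} [∀ j, NormedAddCommGroup (X j)]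
    [∀ j, NormedSpace ℝ (X j)] [∀ j, FiniteDimensional ℝ (X j)] {E : Type} [NormedAddCommGroup E]
    {ρ : Fin J → ℝ} (hρ : ∀ j, 0 ≤ ρ j) {B : Set E} (hB : (0 : E) ∈ B)
    (upd : ∀ j, (∀ i, X i) → E → X j) (nxt : Fin J → (∀ i, X i) → E → E)
    (hu : ∀ j, ContinuousOn (Function.uncurry (upd j))
      ((univ.pi fun i => closedBall (0 : X i) (ρ i)) ×ˢ B))
    (hn : ∀ j, ContinuousOn (Function.uncurry (nxt j))
      ((univ.pi fun i => closedBall (0 : X i) (ρ i)) ×ˢ B))
    (hum : ∀ j x, x ∈ (univ.pi fun i => closedBall (0 : X i) (ρ i)) → ∀ q ∈ B,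
      ‖upd j x q‖ ≤ ρ j)
    (hnm : ∀ j x, x ∈ (univ.pi fun i => closedBall (0 : X i) (ρ i)) → ∀ q ∈ B, nxt j x q ∈ B) :
    ∃ x ∈ (univ.pi fun i => closedBall (0 : X i) (ρ i)), ∃ q : Fin (J + 1) → E,
      q (Fin.last J) = 0 ∧ (∀ j, q j ∈ B) ∧
        (∀ j, q j.castSucc = nxt j x (q j.succ)) ∧ ∀ j, upd j x (q j.succ) = x j := by
  classical
  set S := univ.pi fun i => closedBall (0 : X i) (ρ i) with hS
  set qf : (∀ i, X i) → Fin (J + 1) → E := fun x =>
    Fin.reverseInduction (motive := fun _ => E) 0 fun j q => nxt j x q with hqf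
  have hq0 : ∀ x, qf x (Fin.last J) = 0 := fun x => Fin.reverseInduction_last
  have hqs : ∀ x j, qf x j.castSucc = nxt j x (qf x j.succ) := fun x j =>
    Fin.reverseInduction_castSucc _
  have hqB : ∀ x ∈ S, ∀ i, qf x i ∈ B := fun x hx i => by
    induction i using Fin.reverseInduction with
    | last => rw [hq0]; exact hB
    | cast j ih => rw [hqs]; exact hnm j x hx _ ih
  have hqc : ∀ i, ContinuousOn (fun x => qf x i) S := fun i => by
    induction i using Fin.reverseInduction with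
    | last => simp only [hq0]; exact continuousOn_const
    | cast j ih =>
      simp only [hqs]
      exact (hn j).comp (continuousOn_id.prodMk ih) fun x hx => ⟨hx, hqB x hx _⟩
  set scl : (∀ i, X i) → ∀ i, X i := fun y i => ρ i • y i with hscl
  have hscm : ∀ y ∈ closedBall (0 : ∀ i, X i) 1, scl y ∈ S := fun y hy i _ => by
    rw [mem_closedBall, dist_zero_right] at hy ⊢
    simp only [hscl]
    rw [norm_smul, Real.norm_of_nonneg (hρ i)]
    exact mul_le_of_le_one_right (hρ i) ((norm_le_pi_norm y i).trans hy)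
  set f : (∀ i, X i) → ∀ i, X i :=
    fun y i => (ρ i)⁻¹ • upd i (scl y) (qf (scl y) i.succ) with hf
  have hfc : ContinuousOn f (closedBall 0 1) := continuousOn_pi.2 fun i => by
    refine ContinuousOn.const_smul ?_ _
    exact (hu i).comp (((by fun_prop : Continuous scl).continuousOn).prodMk
      ((hqc i.succ).comp (by fun_prop : Continuous scl).continuousOn hscm))
      fun y hy => ⟨hscm y hy, hqB _ (hscm y hy) _⟩
  have hfm : MapsTo f (closedBall 0 1) (closedBall 0 1) := fun y hy => by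
    rw [mem_closedBall, dist_zero_right, pi_norm_le_iff_of_nonneg zero_le_one]
    intro i
    simp only [hf]
    rw [norm_smul, norm_inv, Real.norm_of_nonneg (hρ i)]
    rcases (hρ i).eq_or_lt with h | h
    · simp [← h]
    · rw [inv_mul_le_one₀ h]
      exact hum i _ (hscm y hy) _ (hqB _ (hscm y hy) _)
  obtain ⟨y, hy, hfy⟩ := exists_fixedPoint_closedBall zero_le_one hfc hfm
  refine ⟨scl y, hscm y hy, qf (scl y), hq0 _, hqB _ (hscm y hy), hqs _, fun j => ?_⟩
  have hyj : f y j = y j := by rw [hfy]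
  simp only [hf] at hyj
  rcases (hρ j).eq_or_lt with h | h
  · have h1 := hum j _ (hscm y hy) _ (hqB _ (hscm y hy) j.succ)
    rw [← h] at h1
    rw [norm_le_zero_iff.1 h1]
    simp [hscl, ← h]
  · show _ = ρ j • y j
    rw [← hyj, smul_inv_smul₀ h.ne']

set_option linter.unusedSectionVars false

variable {ι κ Ω : Type} [Fintype ι] [DecidableEq ι] [Fintype κ] [DecidableEq κ] [DecidableEq Ω]

/-- The part of a matrix inside the sibling blocks. -/
def sibPart (σ : ι → Ω) (a : Matrix ι ι ℂ) : Matrix ι ι ℂ :=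
  fun s t => if σ s = σ t then a s t else 0

/-- The data of one cluster: the four blocks of its backward map, `a` being the S-S block already
multiplied by the inverse of the monomial `M` on the right. -/
structure ClusterBlocks (ι κ : Type) [Fintype ι] where
  M : Matrix ι ι ℂ
  a : Matrix ι ι ℂ
  b : Matrix ι κ ℂ
  QS : Matrix κ ι ℂ
  QQ : Matrix κ κ ℂ

/-- The normalised S-rows on the columns `[1; q]`. -/
def ClusterBlocks.top (K : ClusterBlocks ι κ) (q : Matrix κ ι ℂ) : Matrix ι ι ℂ :=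
  K.a + K.b * q * K.M⁻¹

/-- The Q-rows carried backwards and normalised by the monomial times the sibling block. -/
def ClusterBlocks.qIn (σ : ι → Ω) (K : ClusterBlocks ι κ) (q : Matrix κ ι ℂ) : Matrix κ ι ℂ :=
  (K.QS + K.QQ * q) * K.M⁻¹ * (sibPart σ (K.top q))⁻¹

/-- Bounds of one cluster: `η` for everything the residuals create. -/
structure ClusterBlocks.Bound (σ : ι → Ω) (K : ClusterBlocks ι κ) (η : ℝ) : Prop where
  unit : IsUnit K.M
  a_sib : ‖sibPart σ K.a - 1‖ ≤ η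
  b_le : ‖K.b‖ * ‖K.M⁻¹‖ ≤ η
  QS_le : ‖K.QS * K.M⁻¹‖ ≤ η
  QQ_le : ‖K.QQ‖ * ‖K.M⁻¹‖ ≤ η

/-- The projection to one sibling class. -/
def sibProj (σ : ι → Ω) (o : Ω) : Matrix ι ι ℂ :=
  Matrix.diagonal fun s => if σ s = o then 1 else 0

theorem sibProj_norm_le (σ : ι → Ω) (o : Ω) : ‖sibProj σ o‖ ≤ 1 := by
  rw [sibProj, Matrix.l2_opNorm_diagonal]
  refine (pi_norm_le_iff_of_nonneg zero_le_one).2 fun s => ?_
  split_ifs <;> simp

theorem norm_one_matrix_le : ‖(1 : Matrix ι ι ℂ)‖ ≤ 1 := by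
  rw [← Matrix.diagonal_one, Matrix.l2_opNorm_diagonal]
  exact (pi_norm_le_iff_of_nonneg zero_le_one).2 fun _ => by simp

theorem sibPart_add (σ : ι → Ω) (a b : Matrix ι ι ℂ) :
    sibPart σ (a + b) = sibPart σ a + sibPart σ b := by
  ext s t
  simp only [sibPart, Matrix.add_apply]
  split_ifs <;> simp

theorem sibPart_idem (σ : ι → Ω) (a : Matrix ι ι ℂ) : sibPart σ (sibPart σ a) = sibPart σ a := by
  ext s t
  simp only [sibPart]
  split_ifs <;> rfl

theorem continuous_sibPart (σ : ι → Ω) : Continuous (sibPart σ) := by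
  refine continuous_matrix fun s t => ?_
  simp only [sibPart]
  split_ifs
  · exact continuous_id.matrix_elem s t
  · exact continuous_const

/-- The inverse of a block-diagonal matrix is block diagonal. -/
theorem sibPart_inv (σ : ι → Ω) {D : Matrix ι ι ℂ} (hd : IsUnit D.det) (h : sibPart σ D = D) :
    sibPart σ D⁻¹ = D⁻¹ := by
  have hoff : ∀ s t, σ s ≠ σ t → D s t = 0 := fun s t hne => by
    rw [← h]; simp [sibPart, hne]
  have hc : ∀ o, sibProj σ o * D⁻¹ = D⁻¹ * sibProj σ o := fun o => by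
    have h1 : sibProj σ o * D = D * sibProj σ o := by
      ext s t
      simp only [sibProj, Matrix.diagonal_mul, Matrix.mul_diagonal]
      by_cases hst : σ s = σ t
      · rw [hst, mul_comm]
      · simp [hoff s t hst]
    calc sibProj σ o * D⁻¹ = D⁻¹ * (D * sibProj σ o) * D⁻¹ := by
          rw [← mul_assoc D⁻¹, Matrix.nonsing_inv_mul _ hd, one_mul]
      _ = D⁻¹ * sibProj σ o * (D * D⁻¹) := by rw [← h1]; simp only [mul_assoc]
      _ = _ := by rw [Matrix.mul_nonsing_inv _ hd, mul_one]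
  ext s t
  simp only [sibPart]
  split_ifs with hst
  · rfl
  · have := congrFun (congrFun (hc (σ s)) s) t
    simp only [sibProj, Matrix.diagonal_mul, Matrix.mul_diagonal, if_true, one_mul,
      if_neg (Ne.symm hst), mul_zero] at this
    exact this.symm

omit [DecidableEq Ω] in
theorem continuousOn_matrix_mul {P l m r : Type*} [TopologicalSpace P] [Fintype m] {s : Set P}
    {A : P → Matrix l m ℂ} {B : P → Matrix m r ℂ} (hA : ContinuousOn A s)
    (hB : ContinuousOn B s) : ContinuousOn (fun x => A x * B x) s :=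
  (continuous_fst.matrix_mul continuous_snd).comp_continuousOn (hA.prodMk hB)

theorem sibPart_norm_le (σ : ι → Ω) (a : Matrix ι ι ℂ) :
    ‖sibPart σ a‖ ≤ Fintype.card ι * ‖a‖ := by
  have e : sibPart σ a = ∑ o ∈ Finset.univ.image σ,
      sibProj σ o * a * sibProj σ o := by
    ext s t
    simp only [Matrix.sum_apply, sibProj, Matrix.diagonal_mul, Matrix.mul_diagonal, sibPart]
    rw [Finset.sum_eq_single (σ s) (fun o _ ho => by simp [Ne.symm ho])
      (fun h => absurd (Finset.mem_image_of_mem σ (Finset.mem_univ s)) h)]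
    by_cases h : σ s = σ t
    · simp [h]
    · simp [h, Ne.symm h]
  rw [e]
  refine (norm_sum_le _ _).trans ((Finset.sum_le_sum (g := fun _ => ‖a‖) fun o _ => ?_).trans ?_)
  · refine (Matrix.l2_opNorm_mul _ _).trans ?_
    calc ‖sibProj σ o * a‖ * ‖sibProj σ o‖ ≤ ‖sibProj σ o‖ * ‖a‖ * ‖sibProj σ o‖ := by
          gcongr; exact Matrix.l2_opNorm_mul _ _
      _ ≤ 1 * ‖a‖ * 1 := by gcongr <;> exact sibProj_norm_le σ o
      _ = ‖a‖ := by ring
  · rw [Finset.sum_const, nsmul_eq_mul]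
    refine mul_le_mul_of_nonneg_right ?_ (norm_nonneg _)
    exact_mod_cast Finset.card_image_le

/-- The Q-rows stay small and the sibling block stays near the identity. -/
theorem ClusterBlocks.qIn_le (σ : ι → Ω) {K : ClusterBlocks ι κ} {η : ℝ} (h : K.Bound σ η)
    (hη : 2 * (Fintype.card ι + 1) * η ≤ 1 / 2) (h2 : 4 * η ≤ 1)
    {q : Matrix κ ι ℂ} (hq : ‖q‖ ≤ 1) :
    IsUnit (sibPart σ (K.top q)) ∧
      ‖sibPart σ (K.top q) - 1‖ ≤ (Fintype.card ι + 1) * η ∧
      ‖(sibPart σ (K.top q))⁻¹ - 1‖ ≤ 2 * (Fintype.card ι + 1) * η ∧ ‖K.qIn σ q‖ ≤ 1 := by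
  have hη0 : 0 ≤ η := (norm_nonneg _).trans h.a_sib
  set D := sibPart σ (K.top q) with hD
  have hDsub : ‖D - 1‖ ≤ (Fintype.card ι + 1) * η := by
    have e : D - 1 = (sibPart σ K.a - 1) + sibPart σ (K.b * q * K.M⁻¹) := by
      rw [hD, ClusterBlocks.top, sibPart_add]; abel
    have h2 : ‖K.b * q * K.M⁻¹‖ ≤ η := by
      refine (Matrix.l2_opNorm_mul _ _).trans ?_
      refine le_trans ?_ h.b_le
      refine mul_le_mul_of_nonneg_right ((Matrix.l2_opNorm_mul _ _).trans ?_) (norm_nonneg _)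
      exact mul_le_of_le_one_right (norm_nonneg _) hq
    rw [e]
    refine (norm_add_le _ _).trans ?_
    have h3 := (sibPart_norm_le σ (K.b * q * K.M⁻¹)).trans
      (mul_le_mul_of_nonneg_left h2 (Nat.cast_nonneg _))
    linarith [h.a_sib]
  set x := (Fintype.card ι + 1 : ℝ) * η with hx
  have hx0 : 0 ≤ x := by positivity
  have hxh : x ≤ 1 / 4 := by rw [hx]; linarith
  have hunit : IsUnit D := by
    have h1 : ‖-(D - 1)‖ < 1 := by rw [norm_neg]; linarith
    have := isUnit_one_sub_of_norm_lt_one h1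
    rwa [sub_neg_eq_add, add_sub_cancel] at this
  have hdet := (Matrix.isUnit_iff_isUnit_det D).1 hunit
  have h1n : ‖(1 : Matrix ι ι ℂ)‖ ≤ 1 := norm_one_matrix_le
  have hy : ‖D⁻¹ - 1‖ ≤ 2 * x := by
    have e : D⁻¹ - 1 = D⁻¹ * (1 - D) := by rw [mul_sub, mul_one, Matrix.nonsing_inv_mul _ hdet]
    have h3 : ‖D⁻¹ - 1‖ ≤ (‖D⁻¹ - 1‖ + 1) * x := by
      conv_lhs => rw [e]
      refine (norm_mul_le _ _).trans (mul_le_mul ?_ ?_ (norm_nonneg _) (by positivity))
      · calc ‖D⁻¹‖ = ‖(D⁻¹ - 1) + 1‖ := by rw [sub_add_cancel]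
          _ ≤ _ := (norm_add_le _ _).trans (by linarith)
      · rwa [norm_sub_rev]
    have := mul_le_mul_of_nonneg_left hxh (norm_nonneg (D⁻¹ - 1))
    linarith
  have hDi : ‖D⁻¹‖ ≤ 2 := by
    calc ‖D⁻¹‖ = ‖(D⁻¹ - 1) + 1‖ := by rw [sub_add_cancel]
      _ ≤ ‖D⁻¹ - 1‖ + ‖(1 : Matrix ι ι ℂ)‖ := norm_add_le _ _
      _ ≤ 2 := by linarith
  refine ⟨hunit, hDsub, hy.trans_eq (by rw [hx]; ring), ?_⟩
  have e : K.qIn σ q = (K.QS * K.M⁻¹) * D⁻¹ + K.QQ * q * K.M⁻¹ * D⁻¹ := by
    rw [ClusterBlocks.qIn, ← hD, Matrix.add_mul, Matrix.add_mul]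
  rw [e]
  refine (norm_add_le _ _).trans ?_
  have t1 : ‖K.QS * K.M⁻¹ * D⁻¹‖ ≤ η * 2 :=
    (Matrix.l2_opNorm_mul _ _).trans (mul_le_mul h.QS_le hDi (norm_nonneg _) hη0)
  have t2 : ‖K.QQ * q * K.M⁻¹ * D⁻¹‖ ≤ η * 2 := by
    calc ‖K.QQ * q * K.M⁻¹ * D⁻¹‖ ≤ ‖K.QQ‖ * ‖q‖ * ‖K.M⁻¹‖ * ‖D⁻¹‖ := by
          refine (Matrix.l2_opNorm_mul _ _).trans ?_
          gcongr
          refine (Matrix.l2_opNorm_mul _ _).trans ?_
          gcongr
          exact Matrix.l2_opNorm_mul _ _
      _ ≤ ‖K.QQ‖ * 1 * ‖K.M⁻¹‖ * 2 := by gcongr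
      _ = ‖K.QQ‖ * ‖K.M⁻¹‖ * 2 := by ring
      _ ≤ η * 2 := mul_le_mul_of_nonneg_right h.QQ_le zero_le_two
  linarith

theorem ClusterBlocks.continuousOn_qIn (σ : ι → Ω) {P : Type} [TopologicalSpace P] {s : Set P}
    {K : P → ClusterBlocks ι κ} {q : P → Matrix κ ι ℂ}
    (hM : ContinuousOn (fun x => (K x).M⁻¹) s) (ha : ContinuousOn (fun x => (K x).a) s)
    (hb : ContinuousOn (fun x => (K x).b) s) (hQS : ContinuousOn (fun x => (K x).QS) s)
    (hQQ : ContinuousOn (fun x => (K x).QQ) s) (hq : ContinuousOn q s)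
    (hu : ∀ x ∈ s, IsUnit (sibPart σ ((K x).top (q x)))) :
    ContinuousOn (fun x => (K x).qIn σ (q x)) s := by
  refine continuousOn_matrix_mul (continuousOn_matrix_mul (hQS.add (continuousOn_matrix_mul hQQ hq))
    hM) ?_
  intro x hx
  have h1 : ContinuousWithinAt (fun x => sibPart σ ((K x).top (q x))) s x :=
    (continuous_sibPart σ).continuousAt.comp_continuousWithinAt
      ((ha.add (continuousOn_matrix_mul (continuousOn_matrix_mul hb hq) hM)) x hx)
  obtain ⟨u, hu'⟩ := hu x hx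
  simp only [Matrix.nonsing_inv_eq_ringInverse]
  refine ContinuousAt.comp_continuousWithinAt (g := Ring.inverse) ?_ h1
  rw [← hu']
  exact NormedRing.inverse_continuousAt u

/-- The parameters of all clusters can be chosen so that every correction map is at rest. `RQ` is
the real structure on Q-rows; `upd` moves the parameters by what is read from the normalised
S-rows. -/
theorem exists_monomial_chain (σ : ι → Ω) {J : ℕ} {X : Fin J → Type}
    [∀ j, NormedAddCommGroup (X j)] [∀ j, NormedSpace ℝ (X j)] [∀ j, FiniteDimensional ℝ (X j)]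
    {ρ : Fin J → ℝ} (hρ : ∀ j, 0 ≤ ρ j) (K : Fin J → (∀ i, X i) → ClusterBlocks ι κ)
    (upd : ∀ j, (∀ i, X i) → Matrix ι ι ℂ → X j) (RQ : Set (Matrix κ ι ℂ)) (hR0 : 0 ∈ RQ)
    {η : Fin J → ℝ} (hη : ∀ j, 2 * (Fintype.card ι + 1) * η j ≤ 1 / 2) (h2 : ∀ j, 4 * η j ≤ 1)
    (hbd : ∀ j, ∀ x ∈ univ.pi fun i => closedBall (0 : X i) (ρ i), (K j x).Bound σ (η j))
    (hKM : ∀ j, ContinuousOn (fun x => (K j x).M⁻¹) (univ.pi fun i => closedBall (0 : X i) (ρ i)))
    (hKa : ∀ j, ContinuousOn (fun x => (K j x).a) (univ.pi fun i => closedBall (0 : X i) (ρ i)))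
    (hKb : ∀ j, ContinuousOn (fun x => (K j x).b) (univ.pi fun i => closedBall (0 : X i) (ρ i)))
    (hKS : ∀ j, ContinuousOn (fun x => (K j x).QS) (univ.pi fun i => closedBall (0 : X i) (ρ i)))
    (hKQ : ∀ j, ContinuousOn (fun x => (K j x).QQ) (univ.pi fun i => closedBall (0 : X i) (ρ i)))
    (hupd : ∀ j, ContinuousOn (Function.uncurry (upd j))
      ((univ.pi fun i => closedBall (0 : X i) (ρ i)) ×ˢ univ))
    (hreal : ∀ j, ∀ x ∈ univ.pi fun i => closedBall (0 : X i) (ρ i),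
      ∀ q ∈ RQ, ‖q‖ ≤ 1 → (K j x).qIn σ q ∈ RQ)
    (hmap : ∀ j, ∀ x ∈ univ.pi fun i => closedBall (0 : X i) (ρ i),
      ∀ q ∈ RQ, ‖q‖ ≤ 1 → ‖upd j x ((K j x).top q)‖ ≤ ρ j) :
    ∃ x ∈ (univ.pi fun i => closedBall (0 : X i) (ρ i)), ∃ q : Fin (J + 1) → Matrix κ ι ℂ,
      q (Fin.last J) = 0 ∧ (∀ j, q j ∈ RQ ∧ ‖q j‖ ≤ 1) ∧
        (∀ j, q j.castSucc = (K j x).qIn σ (q j.succ)) ∧
        ∀ j, upd j x ((K j x).top (q j.succ)) = x j := by
  set S := univ.pi fun i => closedBall (0 : X i) (ρ i) with hS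
  set B : Set (Matrix κ ι ℂ) := RQ ∩ {q | ‖q‖ ≤ 1} with hB
  have hle := fun j x (hx : x ∈ S) q (hq : q ∈ B) => ClusterBlocks.qIn_le σ (hbd j x hx) (hη j) (h2 j) hq.2
  have htop : ∀ j, ContinuousOn (fun z : (∀ i, X i) × Matrix κ ι ℂ => (K j z.1).top z.2) (S ×ˢ B) :=
    fun j => ((hKa j).comp continuousOn_fst fun z hz => hz.1).add
      (continuousOn_matrix_mul
        (continuousOn_matrix_mul ((hKb j).comp continuousOn_fst fun z hz => hz.1) continuousOn_snd)
        ((hKM j).comp continuousOn_fst fun z hz => hz.1))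
  obtain ⟨x, hx, q, h0, hqB, hnxt, hup⟩ := exists_chain_fixedPoint (E := Matrix κ ι ℂ) hρ (B := B)
    ⟨hR0, by simp⟩ (fun j x q => upd j x ((K j x).top q)) (fun j x q => (K j x).qIn σ q)
    (fun j => (hupd j).comp (continuousOn_fst.prodMk (htop j)) fun z hz => ⟨hz.1, trivial⟩)
    (fun j => ClusterBlocks.continuousOn_qIn σ
      ((hKM j).comp continuousOn_fst fun z hz => hz.1)
      ((hKa j).comp continuousOn_fst fun z hz => hz.1)
      ((hKb j).comp continuousOn_fst fun z hz => hz.1)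
      ((hKS j).comp continuousOn_fst fun z hz => hz.1)
      ((hKQ j).comp continuousOn_fst fun z hz => hz.1)
      continuousOn_snd fun z hz => (hle j z.1 hz.1 z.2 hz.2).1)
    (fun j x hx q hq => hmap j x hx q hq.1 hq.2)
    (fun j x hx q hq => ⟨hreal j x hx q hq.1 hq.2, (hle j x hx q hq).2.2.2⟩)
  exact ⟨x, hx, q, h0, hqB, hnxt, hup⟩

/-- With monomial S-rows the columns `[1; q]` at the end of a cluster come back to the columns
`[1; q']` at its start times the sibling block times the monomial. -/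
theorem ClusterBlocks.column_eq (σ : ι → Ω) (K : ClusterBlocks ι κ) (hM : IsUnit K.M)
    {q : Matrix κ ι ℂ} (hu : IsUnit (sibPart σ (K.top q)))
    (hmono : sibPart σ (K.top q) = K.top q) :
    K.a * K.M + K.b * q = sibPart σ (K.top q) * K.M ∧
      K.QS + K.QQ * q = K.qIn σ q * (sibPart σ (K.top q) * K.M) := by
  have hd := (Matrix.isUnit_iff_isUnit_det _).1 hu
  have hMd := (Matrix.isUnit_iff_isUnit_det _).1 hM
  refine ⟨?_, ?_⟩
  · rw [hmono, ClusterBlocks.top, Matrix.add_mul, Matrix.mul_assoc _ K.M⁻¹,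
      Matrix.nonsing_inv_mul _ hMd, Matrix.mul_one]
  · rw [ClusterBlocks.qIn]
    calc K.QS + K.QQ * q = (K.QS + K.QQ * q) * (K.M⁻¹ *
          (((sibPart σ (K.top q))⁻¹ * sibPart σ (K.top q)) * K.M)) := by
          rw [Matrix.nonsing_inv_mul _ hd, one_mul, Matrix.nonsing_inv_mul _ hMd, Matrix.mul_one]
      _ = _ := by simp only [Matrix.mul_assoc]

/-- The slot response: near the identity a product of elementary factors is affine to first
order. -/
theorem norm_prod_sub_sum_le {R : Type*} [NormedRing R] [NormOneClass R] (l : List R)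
    (h : (l.map norm).sum ≤ 1) :
    ‖(l.map (1 + ·)).prod - (1 + l.sum)‖ ≤ (l.map norm).sum ^ 2 := by
  induction l with
  | nil => simp
  | cons a l ih =>
    simp only [List.map_cons, List.sum_cons, List.prod_cons] at h ⊢
    set s := (l.map norm).sum with hs
    have hs0 : 0 ≤ s := List.sum_nonneg (by simp)
    have ha := norm_nonneg a
    have h1 := ih (by linarith)
    set P := (l.map (1 + ·)).prod
    have hsum : ‖l.sum‖ ≤ s :=
      List.le_sum_of_subadditive norm norm_zero.le (fun a b => norm_add_le a b) l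
    have hs2 : s ^ 2 ≤ s := by
      rw [sq]; exact mul_le_of_le_one_left hs0 (by linarith)
    have hP : ‖P - 1‖ ≤ 2 * s := by
      calc ‖P - 1‖ = ‖(P - (1 + l.sum)) + l.sum‖ := by congr 1; abel
        _ ≤ s ^ 2 + s := (norm_add_le _ _).trans (add_le_add h1 hsum)
        _ ≤ 2 * s := by linarith
    calc ‖(1 + a) * P - (1 + (a + l.sum))‖ = ‖(P - (1 + l.sum)) + a * (P - 1)‖ := by
          congr 1; noncomm_ring
      _ ≤ s ^ 2 + ‖a‖ * (2 * s) := (norm_add_le _ _).trans
          (add_le_add h1 ((norm_mul_le _ _).trans (mul_le_mul_of_nonneg_left hP ha)))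
      _ ≤ (‖a‖ + s) ^ 2 := by linarith [sq_nonneg ‖a‖]

/-- The correction `z ↦ z - ℓ (m - 1)` keeps the ball when `m = 1 + L z + error`. -/
theorem correction_le {Z R : Type*} [NormedAddCommGroup Z] [NormedSpace ℝ Z]
    [NormedAddCommGroup R] [NormedSpace ℝ R] (ℓ : R →L[ℝ] Z) (L : Z →L[ℝ] R)
    (hℓ : ∀ z, ℓ (L z) = z) {z : Z} {e : R} {ρ c2 η : ℝ} (hz : ‖z‖ ≤ ρ) (hc : 0 ≤ c2)
    (he : ‖e‖ ≤ c2 * ‖z‖ ^ 2 + η) (hsmall : ‖ℓ‖ * (c2 * ρ ^ 2 + η) ≤ ρ) :
    ‖z - ℓ (L z + e)‖ ≤ ρ := by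
  rw [map_add, hℓ, sub_add_cancel_left, norm_neg]
  refine (ℓ.le_opNorm e).trans ((mul_le_mul_of_nonneg_left ?_ (norm_nonneg ℓ)).trans hsmall)
  have := mul_le_mul_of_nonneg_left (pow_le_pow_left₀ (norm_nonneg z) hz 2) hc
  linarith

end Vale.Agent.P225
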