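import Vale.Agent.P225.Riccati.Identities

/-!
P225, module F: the backward map of a cluster against the product of the reference maps of its
segments. On one segment `R = (1 - G J) Q` exactly, `J` being the difference of the two Riccati
solutions at the start; so the product telescopes.
-/

noncomputable section

namespace Vale.Agent.P225

open Set MeasureTheory

variable {𝔸 : Type*} [NormedRing 𝔸] [NormedAlgebra ℝ 𝔸] [CompleteSpace 𝔸]

/-- The weight `∫ e S P` of the jump at the start of a segment. -/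
def segG (e : ℝ → ℝ) (R P : ℝ → 𝔸) (a t : ℝ) : 𝔸 := ∫ u in a..t, e u • (R u * P u)

omit [CompleteSpace 𝔸] in
theorem segG_norm_le {e : ℝ → ℝ} {R P : ℝ → 𝔸} {a t c : ℝ} (hat : a ≤ t) (hc : 0 < c)
    (he : ∀ u ∈ Icc a t, |e u| ≤ Real.exp (-c * (u - a))) (hR : ∀ u ∈ Icc a t, ‖R u‖ ≤ 1)
    (hP : ∀ u ∈ Icc a t, ‖P u‖ ≤ 1) : ‖segG e R P a t‖ ≤ 1 / c := by
  have hint : IntervalIntegrable (fun u => Real.exp (-c * (u - a))) volume a t :=
    (by fun_prop : Continuous fun u : ℝ => Real.exp (-c * (u - a))).intervalIntegrable a t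
  refine (intervalIntegral.norm_integral_le_of_norm_le hat
    (Filter.Eventually.of_forall fun u hu => ?_) hint).trans ?_
  · have hu' : u ∈ Icc a t := Ioc_subset_Icc_self hu
    calc ‖e u • (R u * P u)‖ ≤ |e u| * (‖R u‖ * ‖P u‖) := by
          rw [norm_smul, Real.norm_eq_abs]; gcongr; exact norm_mul_le _ _
      _ ≤ Real.exp (-c * (u - a)) * (1 * 1) := by
          gcongr
          exacts [he u hu', hR u hu', hP u hu']
      _ = _ := by ring
  · have hd : ∀ u ∈ uIcc a t, HasDerivAt (fun u => -(1 / c) * Real.exp (-c * (u - a)))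
        (Real.exp (-c * (u - a))) u := fun u _ => by
      refine ((((hasDerivAt_id u).sub_const a).const_mul (-c)).exp.const_mul (-(1 / c))).congr_deriv ?_
      simp only [id_eq, mul_one]
      field_simp
    rw [intervalIntegral.integral_eq_sub_of_hasDerivAt hd hint, sub_self, mul_zero, Real.exp_zero]
    have : 0 ≤ 1 / c * Real.exp (-c * (t - a)) := by positivity
    linarith

/-- (I2) on one segment without inner jumps. -/
theorem back_segment {W V A R P Q : ℝ → 𝔸} {ν e : ℝ → ℝ} {a b : ℝ}
    (hν : ContinuousOn ν (Icc a b))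
    (hW : ∀ t ∈ Icc a b, HasDerivAt W (A t - W t * W t - ν t • W t) t)
    (hV : ∀ t ∈ Icc a b, HasDerivAt V (A t - V t * V t - ν t • V t) t)
    (hR : ∀ t ∈ Icc a b, HasDerivAt R (-(R t * W t)) t)
    (hP : ∀ t ∈ Icc a b, HasDerivAt P (-(W t * P t)) t)
    (hQ : ∀ t ∈ Icc a b, HasDerivAt Q (-(Q t * V t)) t)
    (he : ∀ t ∈ Icc a b, HasDerivAt e (-ν t * e t) t)
    (he0 : e a = 1) (hR0 : R a = 1) (hP0 : P a = 1) (hQ0 : Q a = 1) :
    ∀ t ∈ Icc a b, R t = Q t - segG e R P a t * (W a - V a) * Q t := by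
  intro t ht
  have hab : a ≤ b := ht.1.trans ht.2
  set g : ℝ → 𝔸 := fun u => e u • (R u * P u) with hg
  have hgc : ContinuousOn g (Icc a b) := fun u hu =>
    ((he u hu).continuousAt.smul
      ((hR u hu).continuousAt.mul (hP u hu).continuousAt)).continuousWithinAt
  set g' := IccExtend hab ((Icc a b).domRestrict g) with hg'
  have hg'c : Continuous g' := (continuousOn_iff_continuous_domRestrict.1 hgc).Icc_extend'
  set G : ℝ → 𝔸 := fun s => ∫ u in a..s, g' u with hG
  have hGd : ∀ s ∈ Icc a b, HasDerivAt G (e s • (R s * P s)) s := fun s hs => by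
    refine ((hg'c.integral_hasStrictDerivAt a s).hasDerivAt).congr_deriv ?_
    rw [hg', IccExtend_of_mem hab _ hs]
    rfl
  have hGe : G t = segG e R P a t := by
    refine intervalIntegral.integral_congr fun u hu => ?_
    rw [uIcc_of_le ht.1] at hu
    simp only [hg']
    rw [IccExtend_of_mem hab _ ⟨hu.1, hu.2.trans ht.2⟩]
    rfl
  have hdiff := riccati_diff hν hW hV hP hQ he he0 hP0 hQ0
  have h := backward_diff (ι := Unit) (W := W) (V := V) (R := R) (Q := Q) (S := fun _ => R)
    (P := fun _ => P) (Qs := fun _ => Q) (G := fun _ => G) (es := fun _ => e) (Rs := fun _ => 1)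
    (J := fun _ => W a - V a) (fun s hs => (hV s hs).continuousAt.continuousWithinAt) hR hQ
    (fun _ => hQ) (fun _ => hGd) (fun _ s _ => one_mul _)
    (fun s hs => by simpa using hdiff s hs) (by simp [hG, hR0, hQ0]) t ht
  simp only [Finset.univ_unique, Finset.sum_singleton, one_mul] at h
  rw [← hGe]
  exact eq_sub_of_add_eq h

/-- Product of the maps of the segments `k, …, m - 1`. -/
def segProd {M : Type*} [Monoid M] (Q : ℕ → M) : ℕ → ℕ → M
  | _, 0 => 1
  | k, m + 1 => if k ≤ m then segProd Q k m * Q m else 1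

/-- The telescoped product. -/
theorem back_telescope {R : Type*} [Ring R] {Rc E Q : ℕ → R} (h0 : Rc 0 = 1) (m : ℕ)
    (h : ∀ k < m, Rc (k + 1) = Rc k * ((1 - E k) * Q k)) :
    Rc m = segProd Q 0 m - ∑ k ∈ Finset.range m, Rc k * E k * segProd Q k m := by
  induction m with
  | zero => simp [h0, segProd]
  | succ m ih =>
    have hk : ∀ k ∈ Finset.range m,
        Rc k * E k * segProd Q k (m + 1) = Rc k * E k * segProd Q k m * Q m := fun k hk => by
      have : k ≤ m := (Finset.mem_range.1 hk).le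
      simp [segProd, this, mul_assoc]
    have hm : segProd Q m (m + 1) = Q m := by
      cases m <;> simp [segProd]
    rw [h m (Nat.lt_succ_self m), Finset.sum_range_succ, Finset.sum_congr rfl hk, ← Finset.sum_mul,
      hm, show segProd Q 0 (m + 1) = segProd Q 0 m * Q m by simp [segProd]]
    have := ih fun k hk => h k (hk.trans (Nat.lt_succ_self m))
    rw [← mul_assoc, mul_sub, mul_one, sub_mul]
    conv_lhs => arg 1; rw [this, sub_mul]
    abel

/-- The error applied to anything, by the residuals born at the segment starts times the growth of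
the reference after them; `P k` is `segProd Q k m`, or the intended product. -/
theorem norm_back_err_le {R : Type*} [NormedRing R] {Rc E P : ℕ → R} (m : ℕ)
    (hc : ∀ k < m, ‖Rc k‖ ≤ 1) (x : R) :
    ‖(∑ k ∈ Finset.range m, Rc k * E k * P k) * x‖ ≤
      ∑ k ∈ Finset.range m, ‖E k‖ * ‖P k * x‖ := by
  rw [Finset.sum_mul]
  refine (norm_sum_le _ _).trans (Finset.sum_le_sum fun k hk => ?_)
  rw [mul_assoc (Rc k * E k)]
  calc ‖Rc k * E k * (P k * x)‖ ≤ ‖Rc k‖ * ‖E k‖ * ‖P k * x‖ :=
        (norm_mul_le _ _).trans (mul_le_mul_of_nonneg_right (norm_mul_le _ _) (norm_nonneg _))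
    _ ≤ 1 * ‖E k‖ * ‖P k * x‖ := by gcongr; exact hc k (Finset.mem_range.1 hk)
    _ = _ := by rw [one_mul]

/-- Residuals: each is the damped previous one plus a jump. -/
theorem residual_le {d η len : ℕ → ℝ} {c : ℝ} (hd : ∀ k, 0 ≤ d k)
    (h : ∀ k, d (k + 1) ≤ Real.exp (-c * len k) * d k + η k) (m : ℕ) :
    d m ≤ Real.exp (-c * ∑ i ∈ Finset.range m, len i) * d 0 +
      ∑ k ∈ Finset.range m, Real.exp (-c * ∑ i ∈ Finset.Ico (k + 1) m, len i) * η k := by
  induction m with
  | zero => simp
  | succ m ih =>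
    refine (h m).trans ?_
    have h2 := mul_le_mul_of_nonneg_left ih (Real.exp_nonneg (-c * len m))
    have e1 : Real.exp (-c * len m) * (Real.exp (-c * ∑ i ∈ Finset.range m, len i) * d 0) =
        Real.exp (-c * ∑ i ∈ Finset.range (m + 1), len i) * d 0 := by
      rw [← mul_assoc, ← Real.exp_add, Finset.sum_range_succ]; ring_nf
    have e2 : ∀ k ∈ Finset.range m, Real.exp (-c * len m) *
        (Real.exp (-c * ∑ i ∈ Finset.Ico (k + 1) m, len i) * η k) =
        Real.exp (-c * ∑ i ∈ Finset.Ico (k + 1) (m + 1), len i) * η k := by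
      intro k hk
      rw [← mul_assoc, ← Real.exp_add, Finset.sum_Ico_succ_top (Finset.mem_range.1 hk)]
      congr 2
      ring
    rw [mul_add, e1, Finset.mul_sum (Finset.range m) _ (Real.exp (-c * len m)),
      Finset.sum_congr rfl e2] at h2
    rw [Finset.sum_range_succ (fun k =>
      Real.exp (-c * ∑ i ∈ Finset.Ico (k + 1) (m + 1), len i) * η k)]
    simp only [Finset.Ico_self, Finset.sum_empty, mul_zero, Real.exp_zero, one_mul]
    linarith

end Vale.Agent.P225
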