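import Mathlib

/-!
P225, module F: the limit of the truncations. Parameters and coefficients at the switch times lie
in countable products of compact balls; on a segment every block is a finite linear equation.
-/

noncomputable section

namespace Vale.Agent.P225

open Filter Topology Set Metric

/-- A common subsequence along which all parameters and all coefficients converge. Entries outside
the truncation are to be filled in by any values in the balls. -/
theorem exists_limit_subseq {ι₁ ι₂ : Type*} [Countable ι₁] [Countable ι₂] {P : ι₁ → Type*}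
    [∀ i, NormedAddCommGroup (P i)] [∀ i, NormedSpace ℝ (P i)] [∀ i, FiniteDimensional ℝ (P i)]
    {E : ι₂ → Type*} [∀ i, NormedAddCommGroup (E i)] [∀ i, NormedSpace ℝ (E i)]
    [∀ i, FiniteDimensional ℝ (E i)] (ρ : ι₁ → ℝ) (bnd : ι₂ → ℝ) (p : ℕ → ∀ i, P i)
    (c : ℕ → ∀ i, E i) (hp : ∀ i, ∀ᶠ J in atTop, ‖p J i‖ ≤ ρ i)
    (hc : ∀ i, ∀ᶠ J in atTop, ‖c J i‖ ≤ bnd i) :
    ∃ φ : ℕ → ℕ, StrictMono φ ∧ ∃ (p' : ∀ i, P i) (c' : ∀ i, E i),
      (∀ i, ‖p' i‖ ≤ ρ i ∧ Tendsto (fun m => p (φ m) i) atTop (𝓝 (p' i))) ∧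
      ∀ i, ‖c' i‖ ≤ bnd i ∧ Tendsto (fun m => c (φ m) i) atTop (𝓝 (c' i)) := by
  classical
  set p1 : ℕ → ∀ i, P i := fun J i => if ‖p J i‖ ≤ ρ i then p J i else 0 with hp1
  set c1 : ℕ → ∀ i, E i := fun J i => if ‖c J i‖ ≤ bnd i then c J i else 0 with hc1
  have hρ : ∀ i, 0 ≤ ρ i := fun i => (norm_nonneg _).trans (hp i).exists.choose_spec
  have hb : ∀ i, 0 ≤ bnd i := fun i => (norm_nonneg _).trans (hc i).exists.choose_spec
  have hmem : ∀ J, (p1 J, c1 J) ∈ (univ.pi fun i => closedBall (0 : P i) (ρ i)) ×ˢ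
      (univ.pi fun i => closedBall (0 : E i) (bnd i)) := fun J => by
    refine ⟨fun i _ => ?_, fun i _ => ?_⟩
    · simp only [hp1, mem_closedBall, dist_zero_right]
      split_ifs with h
      · exact h
      · simpa using hρ i
    · simp only [hc1, mem_closedBall, dist_zero_right]
      split_ifs with h
      · exact h
      · simpa using hb i
  have hK : IsCompact ((univ.pi fun i => closedBall (0 : P i) (ρ i)) ×ˢ
      (univ.pi fun i => closedBall (0 : E i) (bnd i))) :=
    (isCompact_univ_pi fun i => @isCompact_closedBall _ _ (FiniteDimensional.proper ℝ (P i)) _ _).prod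
      (isCompact_univ_pi fun i => @isCompact_closedBall _ _ (FiniteDimensional.proper ℝ (E i)) _ _)
  obtain ⟨⟨p', c'⟩, ⟨hp', hc'⟩, φ, hφ, hlim⟩ := hK.tendsto_subseq hmem
  refine ⟨φ, hφ, p', c', fun i => ⟨by simpa using hp' i trivial, ?_⟩,
    fun i => ⟨by simpa using hc' i trivial, ?_⟩⟩
  · refine (tendsto_pi_nhds.1 hlim.fst_nhds i).congr' ?_
    filter_upwards [hφ.tendsto_atTop.eventually (hp i)] with m hm
    simp [hp1, hm]
  · refine (tendsto_pi_nhds.1 hlim.snd_nhds i).congr' ?_
    filter_upwards [hφ.tendsto_atTop.eventually (hc i)] with m hm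
    simp [hc1, hm]

/-- Solutions of linear equations whose coefficients converge uniformly converge uniformly. -/
theorem tendstoUniformlyOn_linear_ode {E : Type*} [NormedAddCommGroup E] [NormedSpace ℝ E]
    {L : ℕ → ℝ → E →L[ℝ] E} {L' : ℝ → E →L[ℝ] E} {y : ℕ → ℝ → E} {y' : ℝ → E} {a b : ℝ}
    (hab : a ≤ b) (hL' : ContinuousOn L' (Icc a b))
    (hL : TendstoUniformlyOn L L' atTop (Icc a b))
    (hy : ∀ᶠ m in atTop, ∀ t ∈ Icc a b, HasDerivAt (y m) (L m t (y m t)) t)
    (hy' : ∀ t ∈ Icc a b, HasDerivAt y' (L' t (y' t)) t)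
    (h0 : Tendsto (fun m => y m a) atTop (𝓝 (y' a))) :
    TendstoUniformlyOn y y' atTop (Icc a b) := by
  have hyc : ContinuousOn y' (Icc a b) := fun t ht => (hy' t ht).continuousAt.continuousWithinAt
  obtain ⟨Y, hY⟩ := isCompact_Icc.exists_bound_of_continuousOn hyc
  obtain ⟨K, hK⟩ := isCompact_Icc.exists_bound_of_continuousOn hL'
  have hY0 : 0 ≤ Y := (norm_nonneg _).trans (hY a (left_mem_Icc.2 hab))
  have hK0 : 0 ≤ K := (norm_nonneg _).trans (hK a (left_mem_Icc.2 hab))
  rw [Metric.tendstoUniformlyOn_iff]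
  intro ε hε
  set M := Real.exp ((K + 1) * (b - a)) * (1 + Y) + 1 with hM
  have hM0 : 0 < M := by positivity
  set δ := min 1 (ε / (2 * M)) with hδ
  have hδ0 : 0 < δ := lt_min one_pos (by positivity)
  filter_upwards [hy, Metric.tendstoUniformlyOn_iff.1 hL δ hδ0,
    Metric.tendsto_nhds.1 h0 δ hδ0] with m hm hLm h0m t ht
  have hg := norm_le_gronwallBound_of_norm_deriv_right_le (f := fun s => y m s - y' s)
    (f' := fun s => L m s (y m s) - L' s (y' s)) (δ := δ) (K := K + 1) (ε := δ * Y)
    (fun s hs => ((hm s hs).sub (hy' s hs)).continuousAt.continuousWithinAt)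
    (fun s hs => ((hm s (Ico_subset_Icc_self hs)).sub (hy' s (Ico_subset_Icc_self hs))).hasDerivWithinAt)
    (by rw [← dist_eq_norm]; exact h0m.le) (fun s hs => by
      have hs' := Ico_subset_Icc_self hs
      have h1 : ‖L m s - L' s‖ ≤ δ := by
        rw [← dist_eq_norm, dist_comm]; exact (hLm s hs').le
      have h2 : ‖L m s‖ ≤ K + 1 := by
        calc ‖L m s‖ = ‖(L m s - L' s) + L' s‖ := by rw [sub_add_cancel]
          _ ≤ ‖L m s - L' s‖ + ‖L' s‖ := norm_add_le _ _
          _ ≤ 1 + K := add_le_add (h1.trans (min_le_left _ _)) (hK s hs')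
          _ = K + 1 := add_comm _ _
      calc ‖L m s (y m s) - L' s (y' s)‖
          = ‖L m s (y m s - y' s) + (L m s - L' s) (y' s)‖ := by
            simp only [map_sub, sub_apply]; abel_nf
        _ ≤ ‖L m s (y m s - y' s)‖ + ‖(L m s - L' s) (y' s)‖ := norm_add_le _ _
        _ ≤ (K + 1) * ‖y m s - y' s‖ + δ * Y := add_le_add
            ((L m s).le_of_opNorm_le h2 _)
            (((L m s - L' s).le_of_opNorm_le h1 _).trans
              (mul_le_mul_of_nonneg_left (hY s hs') hδ0.le))) t ht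
  have hle : gronwallBound δ (K + 1) (δ * Y) (t - a) ≤ δ * M := by
    rw [gronwallBound_of_K_ne_0 (by positivity)]
    have hu : Real.exp ((K + 1) * (t - a)) ≤ Real.exp ((K + 1) * (b - a)) :=
      Real.exp_le_exp.2 (mul_le_mul_of_nonneg_left (by linarith [ht.2]) (by positivity))
    have h1 : 1 ≤ Real.exp ((K + 1) * (t - a)) :=
      Real.one_le_exp (mul_nonneg (by positivity) (by linarith [ht.1]))
    have h2 : δ * Y / (K + 1) ≤ δ * Y := div_le_self (by positivity) (by linarith)
    have h3 : δ * Y / (K + 1) * (Real.exp ((K + 1) * (t - a)) - 1) ≤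
        δ * Y * Real.exp ((K + 1) * (b - a)) :=
      mul_le_mul h2 (by linarith) (by linarith) (by positivity)
    have h4 := mul_le_mul_of_nonneg_left hu hδ0.le
    rw [hM]
    linarith
  have hδM : δ * M ≤ ε / 2 := by
    have := mul_le_mul_of_nonneg_right (min_le_right 1 (ε / (2 * M))) hM0.le
    refine this.trans (le_of_eq ?_)
    field_simp
  rw [dist_eq_norm, norm_sub_rev]
  linarith

/-- A coefficient depending continuously on the parameters gives such uniform convergence. -/
theorem tendstoUniformlyOn_of_param {P F : Type*} [TopologicalSpace P] [NormedAddCommGroup F]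
    {G : P → ℝ → F} (hG : Continuous (Function.uncurry G)) {p : ℕ → P} {p' : P}
    (hp : Tendsto p atTop (𝓝 p')) (a b : ℝ) :
    TendstoUniformlyOn (fun m => G (p m)) (G p') atTop (Icc a b) := by
  rw [Metric.tendstoUniformlyOn_iff]
  intro ε hε
  have hev : ∀ᶠ q in 𝓝 p', ∀ t ∈ Icc a b, dist (G p' t) (G q t) < ε := by
    refine isCompact_Icc.eventually_forall_of_forall_eventually fun t _ => ?_
    have hc : Continuous fun z : P × ℝ => dist (G p' z.2) (G z.1 z.2) :=
      (hG.comp (continuous_const.prodMk continuous_snd)).dist hG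
    exact hc.continuousAt.eventually_lt continuousAt_const (by simpa using hε)
  exact hp.eventually hev

/-- An inequality valid along the sequence passes to the limit. -/
theorem norm_le_of_tendstoUniformlyOn {E : Type*} [NormedAddCommGroup E] {y : ℕ → ℝ → E}
    {y' : ℝ → E} {s : Set ℝ} {t C : ℝ} (hy : TendstoUniformlyOn y y' atTop s) (ht : t ∈ s)
    (h : ∀ᶠ m in atTop, ‖y m t‖ ≤ C) : ‖y' t‖ ≤ C := by
  exact le_of_tendsto (hy.tendsto_at ht).norm h

end Vale.Agent.P225
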